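import Vale.Agent.P284Z.L.Defs
import Vale.Agent.P284.H625.NS.Strt
import Vale.Agent.P271.H408.Ext

/-!
# P284Z, block L, piece 8b: local lemmas
-/

open scoped ContDiff Topology ENNReal
open Filter Set Function Metric MeasureTheory

noncomputable section

namespace Vale.Agent.P284Z.L.S8b

open Vale.Agent.P272.K

variable {n p : ℕ}

/-- the frames made of basis vectors -/
def eb (σ : Fin p → Fin n) : Fin p → Cm n := fun j => Pi.single (σ j) 1

theorem norm_eb (σ : Fin p → Fin n) : ‖eb σ‖ ≤ 1 :=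
  (pi_norm_le_iff_of_nonneg zero_le_one).2 fun j => by simp [eb, Pi.norm_single]

theorem dd_comp {b : Cm n → Cm p} {τ : Cm n → Cm n} {z : Cm n}
    (hb : DifferentiableAt ℂ b (τ z)) (hτ : DifferentiableAt ℂ τ z) (ξ : Fin p → Cm n) :
    dd (fun w => b (τ w)) z ξ = dd b (τ z) fun i => fderiv ℂ τ z (ξ i) := by
  unfold dd
  rw [fderiv_fun_comp z hb hτ]
  rfl

theorem dd_congr {b b' : Cm n → Cm p} {z : Cm n} (h : b =ᶠ[𝓝 z] b') (ξ : Fin p → Cm n) :
    dd b z ξ = dd b' z ξ := by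
  unfold dd
  rw [h.fderiv_eq]

/-- the Jacobian -/
def jac (S : Cm p → Cm p) (t : Cm p) : ℂ := dd S t (eb id)

theorem dd_left {b : Cm n → Cm p} {S : Cm p → Cm p} {z : Cm n}
    (hS : DifferentiableAt ℂ S (b z)) (hb : DifferentiableAt ℂ b z) (ξ : Fin p → Cm n) :
    dd (fun w => S (b w)) z ξ = jac S (b z) * dd b z ξ := by
  unfold jac dd
  rw [fderiv_fun_comp z hS hb, ← Matrix.det_mul]
  congr 1
  ext i j
  have h : fderiv ℂ b z (ξ j) = ∑ l, fderiv ℂ b z (ξ j) l • (Pi.single l (1 : ℂ) : Cm p) := by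
    ext l
    simp [Finset.sum_apply, Pi.single_apply]
  simp only [Matrix.of_apply, Matrix.mul_apply, ContinuousLinearMap.comp_apply, eb, id]
  rw [h, map_sum, Finset.sum_apply]
  refine Finset.sum_congr rfl fun l _ => ?_
  rw [map_smul, ← h, Pi.smul_apply, smul_eq_mul, mul_comm]

theorem dd_mat (b : Cm n → Cm p) (z : Cm n) (M : Matrix (Fin p) (Fin p) ℂ) (ξ : Fin p → Cm n) :
    dd b z (fun i => ∑ i', M i i' • ξ i') = M.det * dd b z ξ := by
  unfold dd
  rw [← Matrix.det_transpose M, mul_comm, ← Matrix.det_mul]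
  congr 1
  ext i j
  simp [Matrix.mul_apply, Finset.sum_apply, mul_comm]

theorem dd_expand (b : Cm n → Cm p) (z : Cm n) (ξ : Fin p → Cm n) :
    dd b z ξ = ∑ σ : Fin p → Fin n, (∏ j, ξ j (σ j)) * dd b z (eb σ) := by
  have h : ξ = fun j => ∑ l, ξ j l • (Pi.single l (1 : ℂ) : Cm n) := by
    ext j l
    simp [Finset.sum_apply, Pi.single_apply]
  have h1 := (dF b z).toMultilinearMap.map_sum
    (fun j l => ξ j l • (Pi.single l (1 : ℂ) : Cm n))
  rw [← h] at h1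
  rw [← dF_apply]
  refine h1.trans (Finset.sum_congr rfl fun σ _ => ?_)
  rw [MultilinearMap.map_smul_univ, smul_eq_mul, ← dF_apply]
  rfl

theorem norm_dd_le (b : Cm n → Cm p) (z : Cm n) {ξ : Fin p → Cm n} (hξ : ‖ξ‖ ≤ 1) :
    ‖dd b z ξ‖ ≤ ∑ σ : Fin p → Fin n, ‖dd b z (eb σ)‖ := by
  rw [dd_expand]
  refine (norm_sum_le _ _).trans (Finset.sum_le_sum fun σ _ => ?_)
  rw [norm_mul, norm_prod]
  refine mul_le_of_le_one_left (norm_nonneg _) (Finset.prod_le_one (fun _ _ => norm_nonneg _)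
    fun j _ => ?_)
  exact (norm_le_pi_norm (ξ j) _).trans ((norm_le_pi_norm ξ j).trans hξ)

theorem an_fd {m : ℕ} {τ : Cm n → Cm m} {z : Cm n} (h : AnalyticAt ℂ τ z) (v : Cm n) :
    AnalyticAt ℂ (fun w => fderiv ℂ τ w v) z :=
  (h.fderiv.contDiffAt (n := ω)).clm_apply contDiffAt_const |>.analyticAt

theorem an_dd {b : Cm n → Cm p} {z : Cm n} (h : AnalyticAt ℂ b z) (ξ : Fin p → Cm n) :
    AnalyticAt ℂ (fun w => dd b w ξ) z := by
  simp only [dd, Matrix.det_apply', Matrix.of_apply]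
  exact Finset.analyticAt_fun_sum _ fun σ _ => analyticAt_const.mul
    (Finset.analyticAt_fun_prod _ fun i _ => analyticAt_pi_iff.1 (an_fd h _) _)

/-- the action of a change of coordinates on the frames -/
theorem an_frame {τ : Cm n → Cm n} {q : Cm n × (Fin p → Cm n)} (h : AnalyticAt ℂ τ q.1) :
    AnalyticAt ℂ (fun x : Cm n × (Fin p → Cm n) => (τ x.1, fun i => fderiv ℂ τ x.1 (x.2 i))) q := by
  refine (h.comp analyticAt_fst).prod (analyticAt_pi_iff.2 fun i => ?_)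
  have h1 : ContDiffAt ℂ ω (fun x : Cm n × (Fin p → Cm n) => fderiv ℂ τ x.1) q :=
    (h.fderiv.comp analyticAt_fst).contDiffAt
  have h2 : ContDiffAt ℂ ω (fun x : Cm n × (Fin p → Cm n) => x.2 i) q := by fun_prop
  exact (h1.clm_apply h2).analyticAt

theorem exists_frame {b : Cm n → Cm p} {z : Cm n} (h : Surjective (fderiv ℂ b z)) :
    ∃ ξ, dd b z ξ ≠ 0 := by
  choose ξ hξ using fun j : Fin p => h (Pi.single j 1)
  refine ⟨ξ, ?_⟩
  have : (Matrix.of fun i j => fderiv ℂ b z (ξ j) i) = 1 := by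
    ext i j
    simp [hξ, Pi.single_apply, Matrix.one_apply]
  rw [dd, this, Matrix.det_one]
  exact one_ne_zero

/-- equality on a dense set -/
theorem eq_of_dense {X Y : Type} [TopologicalSpace X] [TopologicalSpace Y] [T2Space Y]
    {f g : X → Y} {x : X} {S : X → Prop} (hf : ContinuousAt f x) (hg : ContinuousAt g x)
    (hS : ∃ᶠ y in 𝓝 x, S y) (h : ∀ᶠ y in 𝓝 x, S y → f y = g y) : f x = g x :=
  tendsto_nhds_unique_of_frequently_eq hf hg ((hS.and_eventually h).mono fun _ hy => hy.2 hy.1)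

/-- gluing of local analytic extensions -/
theorem glue {X : Type} [NormedAddCommGroup X] [NormedSpace ℂ X] {U : Set X} (hU : IsOpen U)
    {S : X → Prop} (hS : ∀ x ∈ U, ∃ᶠ y in 𝓝 x, S y) {g : X → ℂ}
    (h : ∀ x ∈ U, ∃ Φ : X → ℂ, AnalyticAt ℂ Φ x ∧ ∀ᶠ y in 𝓝 x, S y → Φ y = g y) :
    ∃ τ : X → ℂ, AnalyticOnNhd ℂ τ U ∧ ∀ x ∈ U, S x → τ x = g x := by
  have key : ∀ x ∈ U, ∀ Φ : X → ℂ, AnalyticAt ℂ Φ x → (∀ᶠ y in 𝓝 x, S y → Φ y = g y) →
      limUnder (𝓝[{y | S y}] x) g = Φ x := fun x hx Φ h1 h2 => by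
    have : (𝓝[{y | S y}] x).NeBot := mem_closure_iff_nhdsWithin_neBot.1
      (mem_closure_iff_frequently.2 (hS x hx))
    refine Tendsto.limUnder_eq ((h1.continuousAt.tendsto.mono_left nhdsWithin_le_nhds).congr' ?_)
    filter_upwards [mem_nhdsWithin_of_mem_nhds h2, self_mem_nhdsWithin] with y y1 y2 using y1 y2
  refine ⟨fun x => limUnder (𝓝[{y | S y}] x) g, fun x hx => ?_, fun x hx hs => ?_⟩
  · obtain ⟨Φ, h1, h2⟩ := h x hx
    refine h1.congr ?_
    filter_upwards [hU.mem_nhds hx, h1.eventually_analyticAt, h2.eventually_nhds] with y y1 y2 y3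
    exact (key y y1 Φ y2 y3).symm
  · obtain ⟨Φ, h1, h2⟩ := h x hx
    exact (key x hx Φ h1 h2).trans (h2.self_of_nhds hs)

/-- descent on a fixed neighbourhood -/
theorem desc {b : Cm n → Cm p} {z₀ : Cm n} (hb : AnalyticAt ℂ b z₀)
    (hs : Surjective (fderiv ℂ b z₀)) {U₀ : Set (Cm n)} (hU₀ : U₀ ∈ 𝓝 z₀) :
    ∃ U ∈ 𝓝 z₀, U ⊆ U₀ ∧ ∀ (F : Cm n → ℂ) (S : Cm n → Prop), AnalyticOnNhd ℂ F U₀ →
      (∀ z ∈ U₀, ∃ᶠ w in 𝓝 z, S w) → (∀ z ∈ U₀, S z → Kil b F z) →
      ∃ h : Cm p → ℂ, AnalyticAt ℂ h (b z₀) ∧ ∀ z ∈ U, F z = h (b z) := by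
  obtain ⟨s, φ, χ, hLs, hφ, hφ0, hχ, hχ0, hχφ, hφχ, hbχ⟩ := P284.H625.exists_straight hb hs
  set L : Cm n →L[ℂ] Cm p := fderiv ℂ b z₀
  have hχt : Tendsto χ (𝓝 0) (𝓝 z₀) := hχ0 ▸ hχ.continuousAt.tendsto
  have hφt : Tendsto φ (𝓝 z₀) (𝓝 0) := hφ0 ▸ hφ.continuousAt.tendsto
  have hg : ∀ᶠ u in 𝓝 (0 : Cm n), AnalyticAt ℂ χ u ∧ φ (χ u) = u ∧
      (∀ᶠ u' in 𝓝 u, b (χ u') = b z₀ + L u') ∧ χ u ∈ U₀ ∧ AnalyticAt ℂ b (χ u) ∧
      AnalyticAt ℂ φ (χ u) ∧ ∀ᶠ w in 𝓝 (χ u), χ (φ w) = w := by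
    filter_upwards [hχ.eventually_analyticAt, hφχ, hbχ.eventually_nhds, hχt.eventually hU₀,
      hχt.eventually hb.eventually_analyticAt, hχt.eventually hφ.eventually_analyticAt,
      hχt.eventually hχφ.eventually_nhds] with u u1 u2 u3 u4 u5 u6 u7
    exact ⟨u1, u2, u3, u4, u5, u6, u7⟩
  obtain ⟨ε, hε, hW⟩ := nhds_basis_ball.eventually_iff.1 hg
  have hst : Tendsto (fun z => s (b z - b z₀)) (𝓝 z₀) (𝓝 0) := by
    have h1 : ContinuousAt (fun z => s (b z - b z₀)) z₀ :=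
      s.continuous.continuousAt.comp (hb.continuousAt.sub continuousAt_const)
    simpa using h1.tendsto
  refine ⟨{z | z ∈ U₀ ∧ φ z ∈ ball 0 ε ∧ χ (φ z) = z ∧ s (b z - b z₀) ∈ ball 0 ε}, ?_,
    fun z hz => hz.1, fun F S hF hS hK => ?_⟩
  · filter_upwards [hU₀, hφt.eventually (ball_mem_nhds 0 hε), hχφ,
      hst.eventually (ball_mem_nhds 0 hε)] with z z1 z2 z3 z4 using ⟨z1, z2, z3, z4⟩
  have hg : ∀ u ∈ ball (0 : Cm n) ε, AnalyticAt ℂ (fun u => F (χ u)) u := fun u hu =>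
    (hF _ (hW hu).2.2.2.1).comp (hW hu).1
  have hker : ∀ v, L v = 0 → ∀ u ∈ ball (0 : Cm n) ε, fderiv ℂ (fun u => F (χ u)) u v = 0 := by
    intro v hv u hu
    obtain ⟨-, u2, -, u4, -, u6, u7⟩ := hW hu
    refine eq_of_dense (f := fun u => fderiv ℂ (fun u => F (χ u)) u v) (g := fun _ => 0)
      (S := fun u => S (χ u)) ?_ continuousAt_const ?_ ?_
    · exact ((hg u hu).fderiv.continuousAt).clm_apply continuousAt_const
    · have h1 : Tendsto φ (𝓝 (χ u)) (𝓝 u) := by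
        have := u6.continuousAt.tendsto
        rwa [u2] at this
      exact h1.frequently (((hS _ u4).and_eventually u7).mono fun w hw => by rw [hw.2]; exact hw.1)
    · filter_upwards [isOpen_ball.mem_nhds hu] with w hw hS'
      obtain ⟨w1, -, w3, w4, w5, -, -⟩ := hW hw
      rw [fderiv_fun_comp w (hF _ w4).differentiableAt w1.differentiableAt]
      refine hK _ w4 hS' _ ?_
      have h1 : fderiv ℂ (fun u => b (χ u)) w = L := by
        rw [Filter.EventuallyEq.fderiv_eq w3]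
        exact (L.hasFDerivAt.const_add _).fderiv
      rw [fderiv_fun_comp w w5.differentiableAt w1.differentiableAt] at h1
      rw [← hv, ← h1]
      rfl
  have hcst : ∀ u ∈ ball (0 : Cm n) ε, ∀ u' ∈ ball (0 : Cm n) ε, L u = L u' →
      F (χ u) = F (χ u') := by
    intro u hu u' hu' h
    have hm : ∀ t ∈ Icc (0 : ℝ) 1, u + t • (u' - u) ∈ ball (0 : Cm n) ε := fun t ht =>
      (convex_ball _ _).add_smul_sub_mem hu hu' ht
    have hd : ∀ t ∈ Icc (0 : ℝ) 1, HasDerivAt (fun t : ℝ => F (χ (u + t • (u' - u)))) 0 t := by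
      intro t ht
      have h1 : HasDerivAt (fun t : ℝ => u + t • (u' - u)) (u' - u) t := by
        simpa using ((hasDerivAt_id t).smul_const (u' - u)).const_add u
      have h2 := ((hg _ (hm t ht)).differentiableAt.hasFDerivAt.restrictScalars ℝ
        ).comp_hasDerivAt t h1
      have h3 := hker (u' - u) (by rw [map_sub, h, sub_self]) _ (hm t ht)
      rw [ContinuousLinearMap.coe_restrictScalars', h3] at h2
      exact h2
    have h4 := constant_of_has_deriv_right_zero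
      (fun t ht => (hd t ht).continuousAt.continuousWithinAt)
      (fun t ht => (hd t (Ico_subset_Icc_self ht)).hasDerivWithinAt) 1 (by simp)
    simpa using h4.symm
  refine ⟨fun t => F (χ (s (t - b z₀))), ?_, fun z hz => ?_⟩
  · refine AnalyticAt.comp_of_eq (f := fun t => s (t - b z₀)) (hg 0 (mem_ball_self hε)) ?_
      (by simp)
    exact (s.analyticAt _).comp (analyticAt_id.sub analyticAt_const)
  · obtain ⟨-, z2, z3, z4⟩ := hz
    have h1 := (hW z2).2.2.1.self_of_nhds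
    rw [z3] at h1
    have h2 := hcst _ z2 _ z4 (by rw [hLs, h1, add_sub_cancel_left])
    rwa [z3] at h2

end Vale.Agent.P284Z.L.S8b
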