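import Vale.Agent.P284Z.L.S8b.Loc
import Vale.Agent.P284Z.F0.Cov

/-!
# P284Z, block L, piece 8b: extension of the tensors
-/

open scoped ContDiff Topology ENNReal
open Filter Set Function Metric MeasureTheory

noncomputable section

namespace Vale.Agent.P284Z.L.S8b

open Vale.Agent.P272.K

variable {n p : ℕ} {Γ E : Type} [Group Γ] [TopologicalSpace E] [MulAction Γ E]

/-- the tensor on the open set -/
def raw (C : Cov n Γ E) (s : E → Cm p) (f : E → ℂ) (k : ℕ) (γ : Γ) (a : C.I) (z : Cm n)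
    (ξ : Fin p → Cm n) : ℂ := f (C.pt γ a z) * ds C s γ a z ξ ^ (k + 1)

/-- the dominating function -/
def dom (C : Cov n Γ E) (s : E → Cm p) (f : E → ℂ) (k : ℕ) (γ : Γ) (a : C.I) (z : Cm n) : ℝ :=
  ‖f (C.pt γ a z)‖ * (∑ σ : Fin p → Fin n, ‖ds C s γ a z (eb σ)‖) ^ (k + 1)

variable {C : Cov n Γ E} {s : E → Cm p} {O : Set E} {f : E → ℂ} {k : ℕ} {γ g : Γ} {a b : C.I}
  {z : Cm n}

theorem dens (ht : Thin C O) (γ : Γ) (hz : z ∈ C.B 4 a) : ∃ᶠ w in 𝓝 z, C.pt γ a w ∈ O := by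
  obtain ⟨h, h1, h2, h3⟩ := ht γ a
  exact ((dense_ne_zero (C.preconn_B 4 a) h1 h2 hz).and_eventually
    ((C.isOpen_B 4 a).mem_nhds hz)).mono fun w hw => h3 w hw.2 hw.1

theorem an_ds (hs : Sub C s O) (hz : z ∈ C.B 4 a) (hO : C.pt γ a z ∈ O) (ξ : Fin p → Cm n) :
    AnalyticAt ℂ (fun w => ds C s γ a w ξ) z := an_dd (hs.hol γ a z hz hO) ξ

theorem an_raw (hs : Sub C s O) (hf : C.HolOn f O) (hz : z ∈ C.B 4 a) (hO : C.pt γ a z ∈ O)
    (ξ : Fin p → Cm n) : AnalyticAt ℂ (fun w => raw C s f k γ a w ξ) z :=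
  (hf γ a z hz hO).mul ((an_ds hs hz hO ξ).pow _)

theorem raw_le {ξ : Fin p → Cm n} (hξ : ‖ξ‖ ≤ 1) :
    ‖raw C s f k γ a z ξ‖ₑ ≤ ENNReal.ofReal (dom C s f k γ a z) := by
  rw [← ofReal_norm]
  refine ENNReal.ofReal_le_ofReal ?_
  rw [raw, norm_mul, norm_pow]
  exact mul_le_mul_of_nonneg_left (pow_le_pow_left₀ (norm_nonneg _) (norm_dd_le _ _ hξ) _)
    (norm_nonneg _)

theorem coef_le (T : Fin (k + 1) → Fin p → Fin n) :
    ‖f (C.pt γ a z) * ∏ l, ds C s γ a z (eb (T l))‖ₑ ≤ ENNReal.ofReal (dom C s f k γ a z) := by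
  rw [← ofReal_norm]
  refine ENNReal.ofReal_le_ofReal ?_
  rw [norm_mul, norm_prod]
  refine mul_le_mul_of_nonneg_left ?_ (norm_nonneg _)
  refine (Finset.prod_le_prod (fun _ _ => norm_nonneg _) fun l _ => Finset.single_le_sum
    (f := fun σ : Fin p → Fin n => ‖ds C s γ a z (eb σ)‖) (fun _ _ => norm_nonneg _)
    (Finset.mem_univ (T l))).trans ?_
  simp

theorem dom_sq : ENNReal.ofReal (dom C s f k γ a z) ^ 2 ≤
    ((n ^ p) ^ (2 * k + 1) : ℕ) * ∑ σ : Fin p → Fin n, ‖raw C s f k γ a z (eb σ)‖ₑ ^ 2 := by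
  have h1 := pow_sum_le_card_mul_sum_pow (s := Finset.univ)
    (f := fun σ : Fin p → Fin n => ‖ds C s γ a z (eb σ)‖) (fun _ _ => norm_nonneg _) (2 * k + 1)
  have h2 : dom C s f k γ a z ^ 2 ≤
      ((n ^ p) ^ (2 * k + 1) : ℕ) * ∑ σ : Fin p → Fin n, ‖raw C s f k γ a z (eb σ)‖ ^ 2 := by
    have h3 : ∀ σ : Fin p → Fin n, ‖raw C s f k γ a z (eb σ)‖ ^ 2 =
        ‖f (C.pt γ a z)‖ ^ 2 * ‖ds C s γ a z (eb σ)‖ ^ (2 * k + 1 + 1) := fun σ => by
      rw [raw, norm_mul, norm_pow]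
      ring
    simp only [h3, ← Finset.mul_sum]
    rw [dom, mul_pow, ← pow_mul, show (k + 1) * 2 = 2 * k + 1 + 1 by ring, mul_left_comm]
    refine mul_le_mul_of_nonneg_left ?_ (by positivity)
    simpa using h1
  have h0 : 0 ≤ dom C s f k γ a z := by unfold dom; positivity
  rw [← ENNReal.ofReal_pow h0]
  refine (ENNReal.ofReal_le_ofReal h2).trans_eq ?_
  rw [ENNReal.ofReal_mul (by positivity), ENNReal.ofReal_natCast,
    ENNReal.ofReal_sum_of_nonneg fun _ _ => by positivity]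
  simp only [ENNReal.ofReal_pow (norm_nonneg _), ofReal_norm]

theorem opn3 (hs : Sub C s O) (γ : Γ) (a : C.I) : IsOpen {z ∈ C.B 3 a | C.pt γ a z ∈ O} :=
  ((C.continuousOn_pt γ a).mono (C.B_mono (by norm_num) a)).isOpen_inter_preimage
    (C.isOpen_B 3 a) hs.opn

/-- the bound of the structure `HF` -/
def Bd (C : Cov n Γ E) (s : E → Cm p) (O : Set E) (f : E → ℂ) (k : ℕ) : Prop :=
  ∃ B < (⊤ : ℝ≥0∞), ∀ a (ξ : Fin p → Cm n), ‖ξ‖ ≤ 1 →
    ∑' γ : Γ, ∫⁻ z in {z ∈ C.B 3 a | C.pt γ a z ∈ O}, ‖raw C s f k γ a z ξ‖ₑ ^ 2 ≤ B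

theorem dom_l2 (hs : Sub C s O) (hf : C.HolOn f O) (h : Bd C s O f k) (a : C.I) :
    ∑' γ : Γ, ∫⁻ z in {z ∈ C.B 3 a | C.pt γ a z ∈ O},
      ENNReal.ofReal (dom C s f k γ a z) ^ 2 < ⊤ := by
  obtain ⟨B, hB, h⟩ := h
  have h1 : ∀ γ : Γ, ∫⁻ z in {z ∈ C.B 3 a | C.pt γ a z ∈ O},
      ENNReal.ofReal (dom C s f k γ a z) ^ 2 ≤ ((n ^ p) ^ (2 * k + 1) : ℕ) *
        ∑ σ : Fin p → Fin n, ∫⁻ z in {z ∈ C.B 3 a | C.pt γ a z ∈ O},
          ‖raw C s f k γ a z (eb σ)‖ₑ ^ 2 := fun γ => by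
    refine (lintegral_mono fun z => dom_sq).trans_eq ?_
    rw [lintegral_const_mul' _ _ (ENNReal.natCast_ne_top _), lintegral_finsetSum']
    intro σ _
    refine AEMeasurable.pow_const (AEMeasurable.enorm (ContinuousOn.aemeasurable ?_
      (opn3 hs γ a).measurableSet)) 2
    exact fun z hz => (an_raw hs hf (C.B_mono (by norm_num) a hz.1) hz.2
      _).continuousAt.continuousWithinAt
  refine (ENNReal.tsum_le_tsum h1).trans_lt ?_
  rw [ENNReal.tsum_mul_left, Summable.tsum_finsetSum fun _ _ => ENNReal.summable]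
  exact ENNReal.mul_lt_top (ENNReal.natCast_lt_top _)
    (ENNReal.sum_lt_top.2 fun σ _ => (h a _ (norm_eb σ)).trans_lt hB)

/-- extension in a chart -/
theorem ext3 (hs : Sub C s O) (ht : Thin C O) (hf : C.HolOn f O) (h : Bd C s O f k) (γ : Γ)
    (a : C.I) : ∃ G : Cm n × (Fin p → Cm n) → ℂ, AnalyticOnNhd ℂ G (C.B 3 a ×ˢ univ) ∧
      ∀ z ∈ C.B 3 a, C.pt γ a z ∈ O → ∀ ξ, G (z, ξ) = raw C s f k γ a z ξ := by
  obtain ⟨u, u1, u2, u3⟩ := ht γ a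
  have h34 : C.B 3 a ⊆ C.B 4 a := C.B_mono (by norm_num) a
  have hc : ∀ T : Fin (k + 1) → Fin p → Fin n, ∀ z ∈ C.B 3 a, C.pt γ a z ∈ O →
      AnalyticAt ℂ (fun z => f (C.pt γ a z) * ∏ l, ds C s γ a z (eb (T l))) z :=
    fun T z hz hO => (hf γ a z (h34 hz) hO).mul
      (Finset.analyticAt_fun_prod _ fun l _ => an_ds hs (h34 hz) hO _)
  have key : ∀ T : Fin (k + 1) → Fin p → Fin n, ∃ F : Cm n → ℂ, AnalyticOnNhd ℂ F (C.B 3 a) ∧
      ∀ z ∈ C.B 3 a, C.pt γ a z ∈ O →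
        F z = f (C.pt γ a z) * ∏ l, ds C s γ a z (eb (T l)) := fun T => by
    obtain ⟨F, F1, F2⟩ := P271.H408.ext_L2 (C.isOpen_B 3 a) (h := u)
      (f := fun z => f (C.pt γ a z) * ∏ l, ds C s γ a z (eb (T l)))
      (u1.mono h34).differentiableOn
      (fun z hz => dense_ne_zero (C.preconn_B 4 a) u1 u2 (h34 hz))
      (fun z hz => (hc T z hz.1 (u3 z (h34 hz.1) hz.2)).differentiableAt.differentiableWithinAt)
      fun z hz => by
        obtain ⟨r, hr, h1⟩ := Metric.isOpen_iff.1 (C.isOpen_B 3 a) z hz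
        refine ⟨r, hr, ne_top_of_le_ne_top (dom_l2 hs hf h a).ne (le_trans ?_ (ENNReal.le_tsum γ))⟩
        have h2 : ball z r ∩ {w | u w ≠ 0} ⊆ {w ∈ C.B 3 a | C.pt γ a w ∈ O} :=
          fun w hw => ⟨h1 hw.1, u3 w (h34 (h1 hw.1)) hw.2⟩
        refine (lintegral_mono_set h2).trans (lintegral_mono fun w => ?_)
        exact pow_le_pow_left₀ zero_le (coef_le T) 2
    have F3 := P268.analyticOnNhd_of_differentiableOn (C.isOpen_B 3 a) F1
    refine ⟨F, F3, fun z hz hO => eq_of_dense (F3 z hz).continuousAt (hc T z hz hO).continuousAt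
      (dense_ne_zero (C.preconn_B 4 a) u1 u2 (h34 hz)) ?_⟩
    filter_upwards [(C.isOpen_B 3 a).mem_nhds hz] with w hw using F2 w hw
  choose F F1 F2 using key
  refine ⟨fun q => ∑ T : Fin (k + 1) → Fin p → Fin n, (∏ l, ∏ j, q.2 j (T l j)) * F T q.1,
    fun q hq => Finset.analyticAt_fun_sum _ fun T _ => AnalyticAt.mul ?_
      ((F1 T _ hq.1).comp analyticAt_fst), fun z hz hO ξ => ?_⟩
  · refine Finset.analyticAt_fun_prod _ fun l _ => Finset.analyticAt_fun_prod _ fun j _ => ?_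
    have h1 : ContDiffAt ℂ ω (fun x : Cm n × (Fin p → Cm n) => x.2 j (T l j)) q := by fun_prop
    exact h1.analyticAt
  · rw [raw, ds, dd_expand, Finset.sum_pow', Fintype.piFinset_univ, Finset.mul_sum]
    refine Finset.sum_congr rfl fun T _ => ?_
    rw [F2 T z hz hO, Finset.prod_mul_distrib, mul_left_comm]
    rfl

theorem raw_ch (hs : Sub C s O) (h : C.Ov g a b z) (hO : C.pt (γ * g) a z ∈ O)
    (ξ : Fin p → Cm n) : raw C s f k (γ * g) a z ξ =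
      raw C s f k γ b (C.tr g a b z) fun i => fderiv ℂ (C.tr g a b) z (ξ i) := by
  have h1 : (fun w => s (C.pt (γ * g) a w)) =ᶠ[𝓝 z] fun w => s (C.pt γ b (C.tr g a b w)) :=
    (C.ev_Ov h).mono fun w hw => by simp only [C.pt_tr hw]
  rw [raw, raw, C.pt_tr h, ds, dd_congr h1, dd_comp (b := fun w => s (C.pt γ b w))
    (hs.hol γ b _ (C.tr_mem h) (by rwa [C.pt_tr h])).differentiableAt (C.an_tr h).differentiableAt]
  rfl

/-- extension to the large charts -/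
theorem ext4 (hs : Sub C s O) (ht : Thin C O) (hf : C.HolOn f O) (h : Bd C s O f k) (γ : Γ)
    (a : C.I) : ∃ G : Cm n × (Fin p → Cm n) → ℂ, AnalyticOnNhd ℂ G (C.B 4 a ×ˢ univ) ∧
      ∀ z ∈ C.B 4 a, C.pt γ a z ∈ O → ∀ ξ, G (z, ξ) = raw C s f k γ a z ξ := by
  obtain ⟨G, G1, G2⟩ := glue ((C.isOpen_B 4 a).prod isOpen_univ)
    (S := fun q : Cm n × (Fin p → Cm n) => C.pt γ a q.1 ∈ O)
    (g := fun q => raw C s f k γ a q.1 q.2)
    (fun q hq => (Continuous.prodMk_left q.2).continuousAt.tendsto.frequently (dens ht γ hq.1))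
    fun q hq => by
      obtain ⟨g, b, w, hw, e⟩ := C.exists_pt (C.pt γ a q.1)
      obtain ⟨h1, h2⟩ := C.Ov_of_eq hq.1 (C.B14 hw) e
      obtain ⟨G, G1, G2⟩ := ext3 hs ht hf h g b
      have h3 : C.tr (g⁻¹ * γ) a b q.1 ∈ C.B 3 b := h2 ▸ C.B_mono (by norm_num) b hw
      refine ⟨fun x => G (C.tr (g⁻¹ * γ) a b x.1, fun i => fderiv ℂ (C.tr (g⁻¹ * γ) a b) x.1 (x.2 i)),
        AnalyticAt.comp (G1 _ ⟨h3, mem_univ _⟩) (an_frame (C.an_tr h1)), ?_⟩
      filter_upwards [continuous_fst.continuousAt.eventually ((C.ev_Ov h1).and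
        ((C.an_tr h1).continuousAt.eventually ((C.isOpen_B 3 b).mem_nhds h3)))] with x hx hO
      have h4 : C.pt (g * (g⁻¹ * γ)) a x.1 ∈ O := by rwa [mul_inv_cancel_left]
      rw [G2 _ hx.2 (by rwa [C.pt_tr hx.1]), ← raw_ch hs hx.1 h4, mul_inv_cancel_left]
  exact ⟨G, G1, fun z hz hO ξ => G2 (z, ξ) ⟨hz, mem_univ _⟩ hO⟩

theorem exists_ten (hs : Sub C s O) (ht : Thin C O) (hf : C.HolOn f O) (h : Bd C s O f k) :
    ∃ T : Ten C p (k + 1), ∀ γ a, ∀ z ∈ C.B 4 a, C.pt γ a z ∈ O → ∀ ξ,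
      T.τ γ a z ξ = raw C s f k γ a z ξ := by
  choose G G1 G2 using ext4 hs ht hf h
  have hc : ∀ γ a, ∀ z ∈ C.B 4 a, ∀ ξ, ContinuousAt (fun w => G γ a (w, ξ)) z :=
    fun γ a z hz ξ => ContinuousAt.comp (f := fun w => (w, ξ))
      (G1 γ a (z, ξ) ⟨hz, mem_univ _⟩).continuousAt (Continuous.prodMk_left ξ).continuousAt
  refine ⟨⟨fun γ a z ξ => G γ a (z, ξ), G1, fun γ g a b z hz ξ => ?_, fun γ a z hz M ξ => ?_,
    fun a => ?_⟩, G2⟩
  · refine eq_of_dense (f := fun w => G (γ * g) a (w, ξ))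
      (g := fun w => G γ b (C.tr g a b w, fun i => fderiv ℂ (C.tr g a b) w (ξ i)))
      (hc _ _ _ hz.1 _) ?_ (dens ht (γ * g) hz.1) ?_
    · exact ContinuousAt.comp (g := G γ b)
        (f := fun w => (C.tr g a b w, fun i => fderiv ℂ (C.tr g a b) w (ξ i)))
        (G1 γ b (C.tr g a b z, fun i => fderiv ℂ (C.tr g a b) z (ξ i))
          (mk_mem_prod (C.tr_mem hz) (mem_univ _))).continuousAt ((C.an_tr hz).continuousAt.prodMk
          (continuousAt_pi.2 fun i => (an_fd (C.an_tr hz) _).continuousAt))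
    · filter_upwards [C.ev_Ov hz] with w hw hO
      rw [G2 _ _ _ hw.1 hO, G2 _ _ _ (C.tr_mem hw) (by rwa [C.pt_tr hw]), raw_ch hs hw hO]
  · refine eq_of_dense (f := fun w => G γ a (w, fun i => ∑ i', M i i' • ξ i'))
      (g := fun w => M.det ^ (k + 1) * G γ a (w, ξ)) (hc _ _ _ hz _)
      (continuousAt_const.mul (hc _ _ _ hz _)) (dens ht γ hz) ?_
    filter_upwards [(C.isOpen_B 4 a).mem_nhds hz] with w hw hO
    rw [G2 _ _ _ hw hO, G2 _ _ _ hw hO, raw, raw, ds, ds, dd_mat, mul_pow, mul_left_comm]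
  · have h34 : C.B 3 a ⊆ C.B 4 a := C.B_mono (by norm_num) a
    have hV : volume (ball (0 : Fin p → Cm n) 1) ≠ ⊤ := measure_ball_lt_top.ne
    have h1 : ∀ γ : Γ, ∫⁻ q in C.B 3 a ×ˢ ball (0 : Fin p → Cm n) 1, ‖G γ a (q.1, q.2)‖ₑ ^ 2 ≤
        (∫⁻ z in {z ∈ C.B 3 a | C.pt γ a z ∈ O}, ENNReal.ofReal (dom C s f k γ a z) ^ 2) *
          volume (ball (0 : Fin p → Cm n) 1) := fun γ => by
      obtain ⟨u, u1, u2, u3⟩ := ht γ a
      have h2 : C.B 3 a =ᵐ[volume] {z ∈ C.B 3 a | C.pt γ a z ∈ O} := by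
        filter_upwards [ae_ne_zero volume (C.isOpen_B 4 a) (C.preconn_B 4 a) u1 u2] with z hz
        exact propext ⟨fun h => ⟨h, u3 z (h34 h) (hz (h34 h))⟩, fun h => h.1⟩
      rw [Measure.volume_eq_prod, ← Measure.prod_restrict, ← lintegral_mul_const' _ _ hV]
      refine (lintegral_prod_le _).trans ?_
      rw [setLIntegral_congr h2]
      refine setLIntegral_mono' (opn3 hs γ a).measurableSet fun z hz => ?_
      rw [← setLIntegral_const]
      refine setLIntegral_mono' measurableSet_ball fun ξ hξ => ?_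
      rw [G2 _ _ _ (h34 hz.1) hz.2]
      exact pow_le_pow_left₀ zero_le (raw_le (mem_ball_zero_iff.1 hξ).le) 2
    refine (ENNReal.tsum_le_tsum h1).trans_lt ?_
    rw [ENNReal.tsum_mul_right]
    exact ENNReal.mul_lt_top (dom_l2 hs hf h a) hV.lt_top

end Vale.Agent.P284Z.L.S8b
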